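import Vale.Agent.Lib.P327.Main

namespace Vale.Agent.Results.P327.AutInduced

open Vale.Agent.Lib.P327

/-- The characteristic function of the set of naturals coded by `A : ℕ → Bool`, as an oracle:
`n` is sent to `1` if `A n` is true and to `0` otherwise. -/
def cf (A : ℕ → Bool) : ℕ →. ℕ := fun n => Part.some (A n).toNat

/-- The Turing degree of the set coded by `A`, as an element of Mathlib's `TuringDegree`. -/
def deg (A : ℕ → Bool) : TuringDegree := toAntisymmetrization TuringReducible (cf A)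

/-- The Turing degrees of sets of natural numbers, with the order induced from
`TuringDegree`. -/
def SetDegrees : Set TuringDegree := Set.range deg

/-- Let `π` be an automorphism of the partial order of Turing degrees of sets of natural
numbers which is induced by a homeomorphism `F` of Cantor space such that `F` and its inverse
are uniformly tail-determined (bi-uniformly invariant for eventual equality).  Then `π` is the
identity. -/
theorem result (F : (ℕ → Bool) ≃ₜ (ℕ → Bool))
    (hF : ∀ a : ℕ, ∃ b : ℕ, ∀ X Y : ℕ → Bool,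
      (∀ n, a ≤ n → X n = Y n) → ∀ n, b ≤ n → F X n = F Y n)
    (hF' : ∀ a : ℕ, ∃ b : ℕ, ∀ X Y : ℕ → Bool,
      (∀ n, a ≤ n → X n = Y n) → ∀ n, b ≤ n → F.symm X n = F.symm Y n)
    (π : SetDegrees ≃o SetDegrees)
    (hπ : ∀ A : ℕ → Bool, (π ⟨deg A, A, rfl⟩ : TuringDegree) = deg (F A)) :
    ∀ d : SetDegrees, π d = d := by
  have hT : ∀ A B : ℕ → Bool,
      TuringReducible (cf A) (cf B) ↔ TuringReducible (cf (F A)) (cf (F B)) := by
    intro A B
    have h1 : (⟨deg A, A, rfl⟩ : SetDegrees) ≤ ⟨deg B, B, rfl⟩ ↔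
        π ⟨deg A, A, rfl⟩ ≤ π ⟨deg B, B, rfl⟩ := (π.le_iff_le).symm
    have h2 : (π ⟨deg A, A, rfl⟩ ≤ π ⟨deg B, B, rfl⟩) ↔
        ((π ⟨deg A, A, rfl⟩ : TuringDegree) ≤ (π ⟨deg B, B, rfl⟩ : TuringDegree)) := Iff.rfl
    rw [hπ A, hπ B] at h2
    exact h1.trans h2
  have hT' : ∀ A B : ℕ → Bool, Nat.RecursiveIn {chi B} (chi A) ↔
      Nat.RecursiveIn {chi (F B)} (chi (F A)) := fun A B =>
    (RecursiveIn.iff_nat.symm.trans (hT A B)).trans RecursiveIn.iff_nat
  rintro ⟨d, A, rfl⟩
  apply Subtype.ext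
  rw [hπ A]
  obtain ⟨h1, h2⟩ := fixed_everywhere F hF hF' hT' A
  have h3 : TuringEquivalent (cf (F A)) (cf A) :=
    ⟨RecursiveIn.iff_nat.2 h1, RecursiveIn.iff_nat.2 h2⟩
  exact Quotient.sound h3

end Vale.Agent.Results.P327.AutInduced
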