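import Vale.Agent.Lib.P327.Generic

namespace Vale.Agent.Results.P327.GenericReals

open Vale.Agent.Lib.P327

/-- The characteristic function of the set of naturals coded by `A : ℕ → Bool`, as an oracle:
`n` is sent to `1` if `A n` is true and to `0` otherwise. -/
def cf (A : ℕ → Bool) : ℕ →. ℕ := fun n => Part.some (A n).toNat

/-- Let `F` be a homeomorphism of Cantor space such that `F` and its inverse are uniformly
tail-determined (bi-uniformly invariant for eventual equality) and such that `F` preserves and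
reflects Turing reducibility.  Then `F A` is Turing equivalent to `A` for every `A` in the
intersection of a sequence of dense open sets. -/
theorem result (F : (ℕ → Bool) ≃ₜ (ℕ → Bool))
    (hF : ∀ a : ℕ, ∃ b : ℕ, ∀ X Y : ℕ → Bool,
      (∀ n, a ≤ n → X n = Y n) → ∀ n, b ≤ n → F X n = F Y n)
    (hF' : ∀ a : ℕ, ∃ b : ℕ, ∀ X Y : ℕ → Bool,
      (∀ n, a ≤ n → X n = Y n) → ∀ n, b ≤ n → F.symm X n = F.symm Y n)
    (hT : ∀ A B : ℕ → Bool,
      TuringReducible (cf A) (cf B) ↔ TuringReducible (cf (F A)) (cf (F B))) :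
    ∃ G : ℕ → Set (ℕ → Bool), (∀ n, IsOpen (G n)) ∧ (∀ n, Dense (G n)) ∧
      ∀ A : ℕ → Bool, (∀ n, A ∈ G n) → TuringEquivalent (cf (F A)) (cf A) := by
  have hT' : ∀ A B : ℕ → Bool, Nat.RecursiveIn {chi B} (chi A) ↔
      Nat.RecursiveIn {chi (F B)} (chi (F A)) := fun A B =>
    (RecursiveIn.iff_nat.symm.trans (hT A B)).trans RecursiveIn.iff_nat
  obtain ⟨G, hGo, hGd, hG⟩ := fixed_on_comeager F hF hF' hT'
  refine ⟨G, hGo, hGd, fun A hA => ?_⟩
  obtain ⟨h1, h2⟩ := hG A hA
  exact ⟨RecursiveIn.iff_nat.2 h1, RecursiveIn.iff_nat.2 h2⟩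

end Vale.Agent.Results.P327.GenericReals
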